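import Vale.Agent.P258.R2.H267.Code

set_option linter.all false

/-!
The enumeration of the colourings of the second pattern, as nested functions of the codes of the
colours found so far.
-/

namespace Vale.Agent.P258.Eleven

def st36 (t : ℕ) (g7 g29 g8 g28 g30 g6 g9 g27 g5 g10 g4 g11 g3 g12 g23 g22 g13 g21 g14
    g20 g15 g19 g16 g18 g17 g0 g26 g1 g25 g2 g24 g31 g32 : ℕ) : Bool :=
  (Nat.beq (mulN g24 (invN g2)) 4097 && !(Nat.beq g31 4097)) ||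
    !(Nat.beq (mulN g0 g0) (mulN (mulN (mulN (mulN (mulN (mulN (mulN (mulN (mulN (mulN (mulN (mulN
    (mulN (mulN (mulN (mulN (mulN (mulN (mulN (mulN (mulN (mulN (mulN (mulN (mulN (mulN (mulN
    (mulN (mulN (mulN (mulN (invN g26) (invN g25)) (invN g31)) g11) g10) g9) g8) (invN g29)) g6)
    g5) g4) g3) g22) g21) g20) g19) g18) g0) g16) g15) g14) g13) g12) g31) (invN g2)) (invN g1))
    (invN g0)) g7) (invN g8)) (invN g7)) g17) (inv13 g0)))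

def st35 (t : ℕ) (g7 g29 g8 g28 g30 g6 g9 g27 g5 g10 g4 g11 g3 g12 g23 g22 g13 g21 g14
    g20 g15 g19 g16 g18 g17 g0 g26 g1 g25 g2 g24 g31 g32 : ℕ) : Bool :=
  !(Nat.beq g32 (cjN g31 g2)) || st36 t g7 g29 g8 g28 g30 g6 g9 g27 g5 g10 g4 g11 g3 g12 g23
    g22 g13 g21 g14 g20 g15 g19 g16 g18 g17 g0 g26 g1 g25 g2 g24 g31 g32

def st34 (t : ℕ) (g7 g29 g8 g28 g30 g6 g9 g27 g5 g10 g4 g11 g3 g12 g23 g22 g13 g21 g14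
    g20 g15 g19 g16 g18 g17 g0 g26 g1 g25 g2 g24 g31 : ℕ) : Bool :=
  force (cjN g31 g24) fun g32 => st35 t g7 g29 g8 g28 g30 g6 g9 g27 g5 g10 g4 g11 g3 g12 g23
    g22 g13 g21 g14 g20 g15 g19 g16 g18 g17 g0 g26 g1 g25 g2 g24 g31 g32

def st33 (t : ℕ) (g7 g29 g8 g28 g30 g6 g9 g27 g5 g10 g4 g11 g3 g12 g23 g22 g13 g21 g14
    g20 g15 g19 g16 g18 g17 g0 g26 g1 g25 g2 g24 g31 : ℕ) : Bool :=
  !(Nat.beq g2 (cjN g3 g31)) || st34 t g7 g29 g8 g28 g30 g6 g9 g27 g5 g10 g4 g11 g3 g12 g23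
    g22 g13 g21 g14 g20 g15 g19 g16 g18 g17 g0 g26 g1 g25 g2 g24 g31

def st32 (t : ℕ) (g7 g29 g8 g28 g30 g6 g9 g27 g5 g10 g4 g11 g3 g12 g23 g22 g13 g21 g14
    g20 g15 g19 g16 g18 g17 g0 g26 g1 g25 g2 g24 : ℕ) : Bool :=
  force (invN (wN g23)) fun u => force (wN g24) fun w => dig.all fun α => dig.all fun β =>
    force (mulN (mulN u (cen t α β)) w) fun g31 => !(Nat.beq (detN g31) 1) || st33 t g7 g29 g8
    g28 g30 g6 g9 g27 g5 g10 g4 g11 g3 g12 g23 g22 g13 g21 g14 g20 g15 g19 g16 g18 g17 g0 g26 g1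
    g25 g2 g24 g31

def st31 (t : ℕ) (g7 g29 g8 g28 g30 g6 g9 g27 g5 g10 g4 g11 g3 g12 g23 g22 g13 g21 g14
    g20 g15 g19 g16 g18 g17 g0 g26 g1 g25 g2 : ℕ) : Bool :=
  force (cjN g25 g2) fun g24 => st32 t g7 g29 g8 g28 g30 g6 g9 g27 g5 g10 g4 g11 g3 g12 g23
    g22 g13 g21 g14 g20 g15 g19 g16 g18 g17 g0 g26 g1 g25 g2 g24

def st30 (t : ℕ) (g7 g29 g8 g28 g30 g6 g9 g27 g5 g10 g4 g11 g3 g12 g23 g22 g13 g21 g14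
    g20 g15 g19 g16 g18 g17 g0 g26 g1 g25 : ℕ) : Bool :=
  force (ciN g1 g25) fun g2 => st31 t g7 g29 g8 g28 g30 g6 g9 g27 g5 g10 g4 g11 g3 g12 g23
    g22 g13 g21 g14 g20 g15 g19 g16 g18 g17 g0 g26 g1 g25 g2

def st29 (t : ℕ) (g7 g29 g8 g28 g30 g6 g9 g27 g5 g10 g4 g11 g3 g12 g23 g22 g13 g21 g14
    g20 g15 g19 g16 g18 g17 g0 g26 g1 : ℕ) : Bool :=
  force (cjN g26 g1) fun g25 => st30 t g7 g29 g8 g28 g30 g6 g9 g27 g5 g10 g4 g11 g3 g12 g23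
    g22 g13 g21 g14 g20 g15 g19 g16 g18 g17 g0 g26 g1 g25

def st28 (t : ℕ) (g7 g29 g8 g28 g30 g6 g9 g27 g5 g10 g4 g11 g3 g12 g23 g22 g13 g21 g14
    g20 g15 g19 g16 g18 g17 g0 g26 : ℕ) : Bool :=
  force (ciN g0 g26) fun g1 => st29 t g7 g29 g8 g28 g30 g6 g9 g27 g5 g10 g4 g11 g3 g12 g23
    g22 g13 g21 g14 g20 g15 g19 g16 g18 g17 g0 g26 g1

def st27 (t : ℕ) (g7 g29 g8 g28 g30 g6 g9 g27 g5 g10 g4 g11 g3 g12 g23 g22 g13 g21 g14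
    g20 g15 g19 g16 g18 g17 g0 : ℕ) : Bool :=
  force (cjN g27 g0) fun g26 => st28 t g7 g29 g8 g28 g30 g6 g9 g27 g5 g10 g4 g11 g3 g12 g23
    g22 g13 g21 g14 g20 g15 g19 g16 g18 g17 g0 g26

def st26 (t : ℕ) (g7 g29 g8 g28 g30 g6 g9 g27 g5 g10 g4 g11 g3 g12 g23 g22 g13 g21 g14
    g20 g15 g19 g16 g18 g17 g0 : ℕ) : Bool :=
  !(Nat.beq g18 (cjN g17 g0)) || st27 t g7 g29 g8 g28 g30 g6 g9 g27 g5 g10 g4 g11 g3 g12 g23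
    g22 g13 g21 g14 g20 g15 g19 g16 g18 g17 g0

def st25 (t : ℕ) (g7 g29 g8 g28 g30 g6 g9 g27 g5 g10 g4 g11 g3 g12 g23 g22 g13 g21 g14
    g20 g15 g19 g16 g18 g17 : ℕ) : Bool :=
  force (cjN g30 g17) fun g0 => st26 t g7 g29 g8 g28 g30 g6 g9 g27 g5 g10 g4 g11 g3 g12 g23
    g22 g13 g21 g14 g20 g15 g19 g16 g18 g17 g0

def st24 (t : ℕ) (g7 g29 g8 g28 g30 g6 g9 g27 g5 g10 g4 g11 g3 g12 g23 g22 g13 g21 g14
    g20 g15 g19 g16 g18 : ℕ) : Bool :=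
  force (cjN g16 g18) fun g17 => st25 t g7 g29 g8 g28 g30 g6 g9 g27 g5 g10 g4 g11 g3 g12 g23
    g22 g13 g21 g14 g20 g15 g19 g16 g18 g17

def st23 (t : ℕ) (g7 g29 g8 g28 g30 g6 g9 g27 g5 g10 g4 g11 g3 g12 g23 g22 g13 g21 g14
    g20 g15 g19 g16 : ℕ) : Bool :=
  force (ciN g19 g16) fun g18 => st24 t g7 g29 g8 g28 g30 g6 g9 g27 g5 g10 g4 g11 g3 g12 g23
    g22 g13 g21 g14 g20 g15 g19 g16 g18

def st22 (t : ℕ) (g7 g29 g8 g28 g30 g6 g9 g27 g5 g10 g4 g11 g3 g12 g23 g22 g13 g21 g14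
    g20 g15 g19 : ℕ) : Bool :=
  force (cjN g15 g19) fun g16 => st23 t g7 g29 g8 g28 g30 g6 g9 g27 g5 g10 g4 g11 g3 g12 g23
    g22 g13 g21 g14 g20 g15 g19 g16

def st21 (t : ℕ) (g7 g29 g8 g28 g30 g6 g9 g27 g5 g10 g4 g11 g3 g12 g23 g22 g13 g21 g14
    g20 g15 : ℕ) : Bool :=
  force (ciN g20 g15) fun g19 => st22 t g7 g29 g8 g28 g30 g6 g9 g27 g5 g10 g4 g11 g3 g12 g23
    g22 g13 g21 g14 g20 g15 g19

def st20 (t : ℕ) (g7 g29 g8 g28 g30 g6 g9 g27 g5 g10 g4 g11 g3 g12 g23 g22 g13 g21 g14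
    g20 : ℕ) : Bool :=
  force (cjN g14 g20) fun g15 => st21 t g7 g29 g8 g28 g30 g6 g9 g27 g5 g10 g4 g11 g3 g12 g23
    g22 g13 g21 g14 g20 g15

def st19 (t : ℕ) (g7 g29 g8 g28 g30 g6 g9 g27 g5 g10 g4 g11 g3 g12 g23 g22 g13 g21 g14 :
    ℕ) : Bool :=
  force (ciN g21 g14) fun g20 => st20 t g7 g29 g8 g28 g30 g6 g9 g27 g5 g10 g4 g11 g3 g12 g23
    g22 g13 g21 g14 g20

def st18 (t : ℕ) (g7 g29 g8 g28 g30 g6 g9 g27 g5 g10 g4 g11 g3 g12 g23 g22 g13 g21 : ℕ)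
    : Bool :=
  force (cjN g13 g21) fun g14 => st19 t g7 g29 g8 g28 g30 g6 g9 g27 g5 g10 g4 g11 g3 g12 g23
    g22 g13 g21 g14

def st17 (t : ℕ) (g7 g29 g8 g28 g30 g6 g9 g27 g5 g10 g4 g11 g3 g12 g23 g22 g13 : ℕ) :
    Bool :=
  force (ciN g22 g13) fun g21 => st18 t g7 g29 g8 g28 g30 g6 g9 g27 g5 g10 g4 g11 g3 g12 g23
    g22 g13 g21

def st16 (t : ℕ) (g7 g29 g8 g28 g30 g6 g9 g27 g5 g10 g4 g11 g3 g12 g23 g22 : ℕ) : Bool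
    :=
  force (cjN g12 g22) fun g13 => st17 t g7 g29 g8 g28 g30 g6 g9 g27 g5 g10 g4 g11 g3 g12 g23
    g22 g13

def st15 (t : ℕ) (g7 g29 g8 g28 g30 g6 g9 g27 g5 g10 g4 g11 g3 g12 g23 : ℕ) : Bool :=
  force (ciN g23 g12) fun g22 => st16 t g7 g29 g8 g28 g30 g6 g9 g27 g5 g10 g4 g11 g3 g12 g23
    g22

def st14 (t : ℕ) (g7 g29 g8 g28 g30 g6 g9 g27 g5 g10 g4 g11 g3 g12 : ℕ) : Bool :=
  (cl t).all fun g23 => st15 t g7 g29 g8 g28 g30 g6 g9 g27 g5 g10 g4 g11 g3 g12 g23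

def st13 (t : ℕ) (g7 g29 g8 g28 g30 g6 g9 g27 g5 g10 g4 g11 g3 : ℕ) : Bool :=
  force (cjN g11 g3) fun g12 => st14 t g7 g29 g8 g28 g30 g6 g9 g27 g5 g10 g4 g11 g3 g12

def st12 (t : ℕ) (g7 g29 g8 g28 g30 g6 g9 g27 g5 g10 g4 g11 : ℕ) : Bool :=
  force (ciN g4 g11) fun g3 => st13 t g7 g29 g8 g28 g30 g6 g9 g27 g5 g10 g4 g11 g3

def st11 (t : ℕ) (g7 g29 g8 g28 g30 g6 g9 g27 g5 g10 g4 : ℕ) : Bool :=
  force (cjN g10 g4) fun g11 => st12 t g7 g29 g8 g28 g30 g6 g9 g27 g5 g10 g4 g11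

def st10 (t : ℕ) (g7 g29 g8 g28 g30 g6 g9 g27 g5 g10 : ℕ) : Bool :=
  force (ciN g5 g10) fun g4 => st11 t g7 g29 g8 g28 g30 g6 g9 g27 g5 g10 g4

def st9 (t : ℕ) (g7 g29 g8 g28 g30 g6 g9 g27 g5 : ℕ) : Bool :=
  force (cjN g9 g5) fun g10 => st10 t g7 g29 g8 g28 g30 g6 g9 g27 g5 g10

def st8 (t : ℕ) (g7 g29 g8 g28 g30 g6 g9 g27 : ℕ) : Bool :=
  force (ciN g6 g9) fun g5 => st9 t g7 g29 g8 g28 g30 g6 g9 g27 g5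

def st7 (t : ℕ) (g7 g29 g8 g28 g30 g6 g9 : ℕ) : Bool :=
  force (ciN g28 g7) fun g27 => st8 t g7 g29 g8 g28 g30 g6 g9 g27

def st6 (t : ℕ) (g7 g29 g8 g28 g30 g6 : ℕ) : Bool :=
  force (cjN g8 g6) fun g9 => st7 t g7 g29 g8 g28 g30 g6 g9

def st5 (t : ℕ) (g7 g29 g8 g28 g30 : ℕ) : Bool :=
  force (ciN g7 g8) fun g6 => st6 t g7 g29 g8 g28 g30 g6

def st4 (t : ℕ) (g7 g29 g8 g28 : ℕ) : Bool :=
  force (ciN g29 g7) fun g30 => st5 t g7 g29 g8 g28 g30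

def st3 (t : ℕ) (g7 g29 g8 : ℕ) : Bool :=
  force (cjN g29 g8) fun g28 => st4 t g7 g29 g8 g28

def st2 (t : ℕ) (g7 g29 : ℕ) : Bool :=
  force (ciN g7 g29) fun g8 => st3 t g7 g29 g8

def st1 (t : ℕ) (g7 : ℕ) : Bool :=
  (orb t).all fun g29 => st2 t g7 g29

def st0 (t : ℕ) : Bool :=
  force (cmp t) fun g7 => st1 t g7

theorem check : (dig.all fun t => st0 t) = true := by
  decide +kernel

end Vale.Agent.P258.Eleven
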